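import Mathlib

/-!
# P219, Gaussian start: the rotation inequality for the standard Gaussian measure

A `C¹` function with values in `[0, 1]`, mean `1 / 2` and close to an indicator has gradient of
Gaussian mean at least `(2 π)^(-1/2)`: the constant is attained by half spaces.
-/

noncomputable section

open MeasureTheory ProbabilityTheory Set Filter
open scoped ENNReal NNReal Real RealInnerProductSpace

namespace Vale.Agent.P219.Gauss

variable {E : Type*} [NormedAddCommGroup E] [InnerProductSpace ℝ E] [FiniteDimensional ℝ E]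
  [MeasurableSpace E] [BorelSpace E]

theorem lintegral_abs_gaussian_one :
    ∫⁻ x, ‖x‖ₑ ∂gaussianReal 0 1 = ENNReal.ofReal (√(2 / π)) := by
  have h1 : ∫⁻ x, ‖x‖ₑ ∂gaussianReal 0 1 =
      ∫⁻ x : ℝ, ENNReal.ofReal ((√(2 * π))⁻¹ * (|x| * Real.exp (-(1 / 2) * |x| ^ 2))) := by
    rw [gaussianReal_of_var_ne_zero 0 one_ne_zero,
      lintegral_withDensity_eq_lintegral_mul _ (measurable_gaussianPDF 0 1) (by fun_prop)]
    refine lintegral_congr fun x => ?_
    simp only [Pi.mul_apply, gaussianPDF, gaussianPDFReal_def, Real.enorm_eq_ofReal_abs,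
      NNReal.coe_one, mul_one, sub_zero, sq_abs]
    rw [← ENNReal.ofReal_mul (by positivity)]
    congr 1
    rw [show -x ^ 2 / 2 = -(1 / 2) * x ^ 2 by ring]
    ring
  have h2 : ∫ x in Ioi (0 : ℝ), x * Real.exp (-(1 / 2) * x ^ 2) = 1 := by
    have := integral_rpow_mul_exp_neg_mul_rpow (p := 2) (q := 1) (b := 1 / 2)
      two_pos (by norm_num) (by norm_num)
    rw [show -((1 : ℝ) + 1) / 2 = -1 by norm_num, show ((1 : ℝ) + 1) / 2 = 1 by norm_num,
      Real.rpow_neg_one, Real.Gamma_one, show ((1 / 2 : ℝ))⁻¹ * (1 / 2) * 1 = 1 by norm_num] at this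
    refine Eq.trans (setIntegral_congr_fun measurableSet_Ioi fun x _ => ?_) this
    rw [Real.rpow_one, Real.rpow_two]
  have hint : Integrable fun x : ℝ => (√(2 * π))⁻¹ * (|x| * Real.exp (-(1 / 2) * |x| ^ 2)) := by
    have h := (integrable_mul_exp_neg_mul_sq (b := 1 / 2) (by norm_num)).abs
    refine (h.congr (Eventually.of_forall fun x => ?_)).const_mul _
    simp [abs_mul, abs_of_pos (Real.exp_pos _)]
  rw [h1, ← ofReal_integral_eq_lintegral_ofReal hint
    (Eventually.of_forall fun x => by positivity), integral_const_mul,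
    integral_comp_abs (f := fun x => x * Real.exp (-(1 / 2) * x ^ 2)), h2]
  congr 1
  rw [mul_one, Real.sqrt_div' _ Real.pi_pos.le, Real.sqrt_mul zero_le_two]
  have hs := Real.sq_sqrt (zero_le_two (α := ℝ))
  field_simp
  linarith

theorem lintegral_dual_stdGaussian (L : E →L[ℝ] ℝ) :
    ∫⁻ x, ‖L x‖ₑ ∂stdGaussian E = ENNReal.ofReal (√(2 / π)) * ‖L‖ₑ := by
  have h1 : (stdGaussian E).map L = gaussianReal 0 ((‖L‖ ^ 2).toNNReal) := by
    rw [IsGaussian.map_eq_gaussianReal, integral_strongDual_stdGaussian,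
      variance_dual_stdGaussian]
  have h2 : gaussianReal 0 ((‖L‖ ^ 2).toNNReal) = (gaussianReal 0 1).map (‖L‖ * ·) := by
    rw [gaussianReal_map_const_mul, mul_zero, mul_one]
    congr 1
    ext
    simp [Real.coe_toNNReal _ (sq_nonneg ‖L‖)]
  rw [← lintegral_map (f := fun y : ℝ => ‖y‖ₑ) (by fun_prop) L.continuous.measurable, h1, h2,
    lintegral_map (f := fun y : ℝ => ‖y‖ₑ) (by fun_prop) (by fun_prop)]
  simp only [enorm_mul, enorm_norm]
  rw [lintegral_const_mul _ (by fun_prop), lintegral_abs_gaussian_one, mul_comm]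

/-- The rotation inequality: the mean oscillation is at most the mean gradient. -/
theorem lintegral_sub_le {f : E → ℝ} (hf : ContDiff ℝ 1 f) :
    ∫⁻ p, ‖f p.2 - f p.1‖ₑ ∂(stdGaussian E).prod (stdGaussian E)
      ≤ ENNReal.ofReal (√(π / 2)) * ∫⁻ x, ‖fderiv ℝ f x‖ₑ ∂stdGaussian E := by
  set γ := stdGaussian E
  set G : E × E → ℝ≥0∞ := fun p => ‖fderiv ℝ f p.1 p.2‖ₑ
  have hd : Continuous (fderiv ℝ f) := hf.continuous_fderiv one_ne_zero
  have hG : Continuous fun p : E × E => fderiv ℝ f p.1 p.2 :=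
    (hd.comp continuous_fst).clm_apply continuous_snd
  set rot : ℝ → E × E → E × E := fun θ p =>
    (Real.cos θ • p.1 + Real.sin θ • p.2, -Real.sin θ • p.1 + Real.cos θ • p.2)
  have hrc : Continuous fun q : ℝ × (E × E) => rot q.1 q.2 := by fun_prop
  have key : ∀ p : E × E, ‖f p.2 - f p.1‖ₑ ≤ ∫⁻ θ in Ioc (0 : ℝ) (π / 2), G (rot θ p) := by
    intro p
    set h : ℝ → ℝ := fun θ => f (rot θ p).1
    have hh : ∀ θ, HasDerivAt h (fderiv ℝ f (rot θ p).1 (rot θ p).2) θ := fun θ =>
      ((hf.differentiable one_ne_zero _).hasFDerivAt).comp_hasDerivAt θ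
        (((Real.hasDerivAt_cos θ).smul_const p.1).add ((Real.hasDerivAt_sin θ).smul_const p.2))
    have hc : Continuous fun θ => fderiv ℝ f (rot θ p).1 (rot θ p).2 :=
      hG.comp (hrc.comp (Continuous.prodMk continuous_id continuous_const))
    have e : f p.2 - f p.1 = ∫ θ in Ioc (0 : ℝ) (π / 2), fderiv ℝ f (rot θ p).1 (rot θ p).2 := by
      rw [← intervalIntegral.integral_of_le (by positivity : (0 : ℝ) ≤ π / 2),
        intervalIntegral.integral_eq_sub_of_hasDerivAt (fun θ _ => hh θ)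
          (hc.intervalIntegrable _ _)]
      simp [h, rot]
    rw [e]
    exact enorm_integral_le_lintegral_enorm _
  have hrot : ∀ θ, ∫⁻ p, G (rot θ p) ∂γ.prod γ = ∫⁻ p, G p ∂γ.prod γ := fun θ => by
    have h := IsGaussian.map_rotation_eq_self_of_forall_strongDual_eq_zero (μ := γ)
      integral_strongDual_stdGaussian θ
    conv_rhs => rw [← h]
    rw [lintegral_map hG.enorm.measurable (ContinuousLinearMap.continuous _).measurable]
    simp only [G, rot, ContinuousLinearMap.rotation_apply]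
  calc ∫⁻ p, ‖f p.2 - f p.1‖ₑ ∂γ.prod γ
      ≤ ∫⁻ p, ∫⁻ θ in Ioc (0 : ℝ) (π / 2), G (rot θ p) ∂volume ∂γ.prod γ := lintegral_mono key
    _ = ∫⁻ θ in Ioc (0 : ℝ) (π / 2), ∫⁻ p, G (rot θ p) ∂γ.prod γ := by
        refine lintegral_lintegral_swap (Measurable.aemeasurable ?_)
        exact hG.enorm.measurable.comp
          (hrc.comp (continuous_snd.prodMk continuous_fst)).measurable
    _ = ENNReal.ofReal (π / 2) * ∫⁻ p, G p ∂γ.prod γ := by
        simp only [hrot, setLIntegral_const, Real.volume_Ioc, sub_zero]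
        rw [mul_comm]
    _ = ENNReal.ofReal (π / 2) * (ENNReal.ofReal (√(2 / π)) * ∫⁻ x, ‖fderiv ℝ f x‖ₑ ∂γ) := by
        congr 1
        rw [lintegral_prod _ hG.enorm.measurable.aemeasurable,
          ← lintegral_const_mul' _ _ ENNReal.ofReal_ne_top]
        exact lintegral_congr fun x => lintegral_dual_stdGaussian (fderiv ℝ f x)
    _ = _ := by
        rw [← mul_assoc, ← ENNReal.ofReal_mul (by positivity)]
        congr 2
        conv_lhs => rw [← Real.mul_self_sqrt (by positivity : (0 : ℝ) ≤ π / 2)]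
        rw [mul_assoc, ← Real.sqrt_mul (by positivity), show π / 2 * (2 / π) = 1 by field_simp,
          Real.sqrt_one, mul_one]

/-- A function with mean `1 / 2` close to an indicator has Gaussian gradient mean at least
`(2 π)^(-1/2)`. -/
theorem gradient_mean_ge {f : E → ℝ} (hf : ContDiff ℝ 1 f) (h01 : ∀ x, f x ∈ Icc (0 : ℝ) 1)
    {μ η : ℝ} (hμ : ∫ x, f x ∂stdGaussian E = μ)
    (hη : ∫ x, f x * (1 - f x) ∂stdGaussian E ≤ η)
    (hint : Integrable (fun x => ‖fderiv ℝ f x‖) (stdGaussian E)) :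
    2 * μ * (1 - μ) - 2 * η ≤ √(π / 2) * ∫ x, ‖fderiv ℝ f x‖ ∂stdGaussian E := by
  set γ := stdGaussian E
  have hc : Continuous f := hf.continuous
  have hb : ∀ {g : E → ℝ}, Continuous g → (∀ x, |g x| ≤ 1) → Integrable g γ := fun hg hg1 =>
    Integrable.of_bound hg.aestronglyMeasurable 1 (Eventually.of_forall fun x => by
      rw [Real.norm_eq_abs]; exact hg1 x)
  have i1 : Integrable f γ := hb hc fun x => abs_le.2 ⟨by linarith [(h01 x).1], (h01 x).2⟩
  have i2 : Integrable (fun x => f x * (1 - f x)) γ := hb (by fun_prop) fun x =>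
    abs_le.2 ⟨by nlinarith [(h01 x).1, (h01 x).2], by nlinarith [(h01 x).1, (h01 x).2]⟩
  have hp : Integrable (fun p : E × E => |f p.2 - f p.1|) (γ.prod γ) :=
    Integrable.of_bound (by fun_prop : Continuous fun p : E × E => |f p.2 - f p.1|).aestronglyMeasurable
      1 (Eventually.of_forall fun p => by
        rw [Real.norm_eq_abs, abs_abs]
        exact abs_le.2 ⟨by linarith [(h01 p.1).2, (h01 p.2).1], by linarith [(h01 p.1).1, (h01 p.2).2]⟩)
  have k1 : 2 * μ * (1 - μ) - 2 * ∫ x, f x * (1 - f x) ∂γ ≤ ∫ p, |f p.2 - f p.1| ∂γ.prod γ := by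
    have e1 : ∀ g : E → ℝ, ∫ p, g p.1 ∂γ.prod γ = ∫ x, g x ∂γ := fun g => by
      simp [integral_fun_fst]
    have e2 : ∀ g : E → ℝ, ∫ p, g p.2 ∂γ.prod γ = ∫ x, g x ∂γ := fun g => by
      simp [integral_fun_snd]
    have iA : Integrable (fun p : E × E => f p.2 + f p.1) (γ.prod γ) :=
      (i1.comp_snd γ).add (i1.comp_fst γ)
    have iB : Integrable (fun p : E × E => 2 * (f p.1 * f p.2)) (γ.prod γ) :=
      (i1.mul_prod i1).const_mul 2
    have iC : Integrable (fun p : E × E => f p.2 * (1 - f p.2) + f p.1 * (1 - f p.1)) (γ.prod γ) :=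
      (i2.comp_snd γ).add (i2.comp_fst γ)
    have e : ∫ p, ((f p.2 + f p.1) - 2 * (f p.1 * f p.2)
        - (f p.2 * (1 - f p.2) + f p.1 * (1 - f p.1))) ∂γ.prod γ
        = 2 * μ * (1 - μ) - 2 * ∫ x, f x * (1 - f x) ∂γ := by
      have iAB : Integrable (fun p : E × E => (f p.2 + f p.1) - 2 * (f p.1 * f p.2)) (γ.prod γ) :=
        iA.sub iB
      rw [integral_sub iAB iC, integral_sub iA iB,
        integral_add (i1.comp_snd γ) (i1.comp_fst γ),
        integral_add (i2.comp_snd γ) (i2.comp_fst γ), integral_const_mul,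
        integral_prod_mul, e1, e2, e1 fun x => f x * (1 - f x), e2 fun x => f x * (1 - f x), hμ]
      ring
    rw [← e]
    refine integral_mono ((iA.sub iB).sub iC) hp fun p => ?_
    simp only
    have h1 : |f p.2 - f p.1| ≤ 1 :=
      abs_le.2 ⟨by linarith [(h01 p.1).2, (h01 p.2).1], by linarith [(h01 p.1).1, (h01 p.2).2]⟩
    have h2 := mul_le_of_le_one_left (abs_nonneg (f p.2 - f p.1)) h1
    rw [← abs_mul, abs_mul_self] at h2
    nlinarith
  have k2 : ∫ p, |f p.2 - f p.1| ∂γ.prod γ ≤ √(π / 2) * ∫ x, ‖fderiv ℝ f x‖ ∂γ := by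
    have h := lintegral_sub_le (E := E) hf
    have l1 : ∫⁻ p, ‖f p.2 - f p.1‖ₑ ∂γ.prod γ
        = ENNReal.ofReal (∫ p, |f p.2 - f p.1| ∂γ.prod γ) := by
      rw [ofReal_integral_eq_lintegral_ofReal hp (Eventually.of_forall fun p => abs_nonneg _)]
      exact lintegral_congr fun p => Real.enorm_eq_ofReal_abs _
    have l2 : ∫⁻ x, ‖fderiv ℝ f x‖ₑ ∂γ = ENNReal.ofReal (∫ x, ‖fderiv ℝ f x‖ ∂γ) := by
      rw [ofReal_integral_eq_lintegral_ofReal hint (Eventually.of_forall fun x => norm_nonneg _)]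
      exact lintegral_congr fun x => (ofReal_norm _).symm
    rw [l1, l2, ← ENNReal.ofReal_mul (by positivity)] at h
    exact (ENNReal.ofReal_le_ofReal_iff
      (mul_nonneg (Real.sqrt_nonneg _) (integral_nonneg fun x => norm_nonneg _))).1 h
  linarith

/-- The standard Gaussian measure has the Gaussian density. -/
theorem stdGaussian_eq_withDensity :
    stdGaussian E = volume.withDensity fun x => ENNReal.ofReal
      (Real.exp (-(1 / 2) * ‖x‖ ^ 2) / (√(2 * π)) ^ Module.finrank ℝ E) := by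
  set φ : E → ℝ := fun x => Real.exp (-(1 / 2) * ‖x‖ ^ 2) / (√(2 * π)) ^ Module.finrank ℝ E
  have hb : (0 : ℝ) < ((1 / 2 : ℝ) : ℂ).re := by norm_num
  have hi : Integrable φ := by
    have h := GaussianFourier.integral_rexp_neg_mul_sq_norm (V := E) (b := 1 / 2) (by norm_num)
    refine (Integrable.of_integral_ne_zero ?_).div_const _
    rw [h]; positivity
  have : IsFiniteMeasure (volume.withDensity fun x => ENNReal.ofReal (φ x)) :=
    isFiniteMeasure_withDensity_ofReal hi.2
  refine Measure.ext_of_charFun ?_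
  ext t
  rw [charFun_stdGaussian, charFun_apply,
    integral_withDensity_eq_integral_toReal_smul (by fun_prop)
      (Eventually.of_forall fun _ => ENNReal.ofReal_lt_top)]
  have e : ∀ x : E, (ENNReal.ofReal (φ x)).toReal • Complex.exp ((⟪x, t⟫ : ℝ) * Complex.I)
      = Complex.exp (-((1 / 2 : ℝ) : ℂ) * ‖x‖ ^ 2 + Complex.I * (⟪t, x⟫ : ℝ))
        / ((√(2 * π) : ℝ) : ℂ) ^ Module.finrank ℝ E := fun x => by
    rw [ENNReal.toReal_ofReal (by positivity), Complex.real_smul, Complex.exp_add, real_inner_comm]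
    simp only [φ]
    push_cast
    ring
  rw [integral_congr_ae (Eventually.of_forall e)]
  rw [integral_div, GaussianFourier.integral_cexp_neg_mul_sq_norm_add hb]
  have hs : ((π : ℂ) / ((1 / 2 : ℝ) : ℂ)) ^ ((Module.finrank ℝ E : ℂ) / 2)
      = ((√(2 * π) : ℝ) : ℂ) ^ Module.finrank ℝ E := by
    rw [show (π : ℂ) / ((1 / 2 : ℝ) : ℂ) = ((2 * π : ℝ) : ℂ) by push_cast; ring,
      show ((Module.finrank ℝ E : ℂ) / 2) = (((Module.finrank ℝ E : ℝ) / 2 : ℝ) : ℂ) by push_cast; ring,
      ← Complex.ofReal_cpow (by positivity), ← Complex.ofReal_pow]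
    congr 1
    rw [Real.sqrt_eq_rpow, ← Real.rpow_natCast, ← Real.rpow_mul (by positivity)]
    ring_nf
  rw [hs, mul_div_assoc]
  have hne : ((√(2 * π) : ℝ) : ℂ) ^ Module.finrank ℝ E ≠ 0 :=
    pow_ne_zero _ (Complex.ofReal_ne_zero.2 (by positivity))
  rw [mul_comm, div_mul_cancel₀ _ hne, Complex.I_sq]
  congr 1
  push_cast
  ring

end Vale.Agent.P219.Gauss
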